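import Vale.Agent.P241.LDefs

namespace Vale.Agent.P241.Lite

/-- The conjecture `r_n = ℓ` for all pairs, with target height `n`. -/
def Conj (p : ℕ) (K : ℕ → Homology) (n : ℕ) : Prop :=
  ∀ (G : Type) [Group G] [Finite G], IsPGroup p G → ∀ H : Subgroup G, loss K n H = cycLen H ⊤

end Vale.Agent.P241.Lite
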