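import Mathlib.Data.ENat.Lattice
import Mathlib.GroupTheory.PGroup
import Mathlib.GroupTheory.Rank
import Mathlib.GroupTheory.SpecificGroups.Cyclic
import Mathlib.Order.Hom.Basic

namespace Vale.Agent.P241.Lite

/-- Monotone maps `[m] → [n]`. -/
def Op (m n : ℕ) : Type := Fin (m + 1) →o Fin (n + 1)

/-- The identity of `[n]`. -/
def Op.id (n : ℕ) : Op n n := OrderHom.id

/-- The composite `[l] → [m] → [n]`. -/
def Op.comp {l m n : ℕ} (a : Op l m) (b : Op m n) : Op l n := OrderHom.comp b a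

/-- Based simplicial sets: `S n` is the set of `n`-simplices. -/
structure BSS where
  S : ℕ → Type
  pt : ∀ n, S n
  op : ∀ {m n}, Op m n → S n → S m
  op_pt : ∀ {m n} (a : Op m n), op a (pt n) = pt m
  op_id : ∀ {n} (x : S n), op (Op.id n) x = x
  op_comp : ∀ {l m n} (a : Op l m) (b : Op m n) (x : S n), op (a.comp b) x = op a (op b x)

/-- Finitely many simplices in each degree, and every simplex is degenerate on a simplex of
dimension at most `d`. -/
def BSS.IsFin (X : BSS) : Prop :=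
  (∀ n, Finite (X.S n)) ∧ ∃ d, ∀ n (x : X.S n), ∃ k ≤ d, ∃ (a : Op n k) (y : X.S k), X.op a y = x

/-- Based simplicial maps. -/
structure Map (X Y : BSS) where
  f : ∀ {n}, X.S n → Y.S n
  f_pt : ∀ n, f (X.pt n) = Y.pt n
  f_op : ∀ {m n} (a : Op m n) (x : X.S n), f (X.op a x) = Y.op a (f x)

/-- Based simplicial homotopy; `t : [n] → {false < true}` is an `n`-simplex of the interval. -/
def Homotopic {X Y : BSS} (f g : Map X Y) : Prop :=
  ∃ H : ∀ n, X.S n → (Fin (n + 1) →o Bool) → Y.S n,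
    (∀ m n (a : Op m n) x t, H m (X.op a x) (t.comp a) = Y.op a (H n x t)) ∧
    ∀ n, (∀ t, H n (X.pt n) t = Y.pt n) ∧
      ∀ x, H n x (OrderHom.const _ false) = f.f x ∧ H n x (OrderHom.const _ true) = g.f x

/-- `i : A → X` is injective and `q : X → Q` identifies `Q` with `X / A`. -/
def IsCofiber {A X Q : BSS} (i : Map A X) (q : Map X Q) : Prop :=
  ∀ n, (∀ a b : A.S n, i.f a = i.f b → a = b) ∧ (∀ y : Q.S n, ∃ x, q.f x = y) ∧
    (∀ x : X.S n, q.f x = Q.pt n ↔ ∃ a, i.f a = x) ∧
    ∀ x y : X.S n, q.f x = q.f y → x = y ∨ q.f x = Q.pt n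

/-- Reduced homology theories, with values in pointed sets (for instance abelian groups):
functoriality, homotopy invariance, and the long exact sequence of a cofibre pair. -/
structure Homology where
  h : ℤ → BSS → Type
  zero : ∀ j X, h j X
  map : ∀ j {X Y : BSS}, Map X Y → h j X → h j Y
  map_zero : ∀ j {X Y} (f : Map X Y), map j f (zero j X) = zero j Y
  map_id : ∀ j {X} (f : Map X X), (∀ n (x : X.S n), f.f x = x) → ∀ x, map j f x = x
  map_comp : ∀ j {X Y Z} (f : Map X Y) (g : Map Y Z) (k : Map X Z),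
    (∀ n (x : X.S n), k.f x = g.f (f.f x)) → ∀ x, map j k x = map j g (map j f x)
  homotopy : ∀ j {X Y} (f g : Map X Y), Homotopic f g → map j f = map j g
  exact : ∀ {A X Q} (i : Map A X) (q : Map X Q), IsCofiber i q →
    ∃ δ : ∀ j, h (j + 1) Q → h j A, ∀ j,
      (∀ x, map j q x = zero j Q ↔ ∃ a, map j i a = x) ∧
      (∀ y, δ j y = zero j A ↔ ∃ x, map (j + 1) q x = y) ∧
      ∀ a, map j i a = zero j X ↔ ∃ y, δ j y = a

/-- `E`-acyclic based simplicial sets. -/
def Homology.Acyclic (E : Homology) (X : BSS) : Prop := ∀ j x, x = E.zero j X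

/-- Based simplicial sets with an action of `G`. -/
structure GCx (G : Type) [Group G] extends BSS where
  act : G → Map toBSS toBSS
  act_one : ∀ n (x : S n), (act 1).f x = x
  act_mul : ∀ g h n (x : S n), (act (g * h)).f x = (act g).f ((act h).f x)

/-- `i : Y → X` identifies `Y` with the `H`-fixed points of `X`. -/
def IsFix {G : Type} [Group G] (X : GCx G) (H : Subgroup G) {Y : BSS} (i : Map Y X.toBSS) : Prop :=
  ∀ n, (∀ a b : Y.S n, i.f a = i.f b → a = b) ∧
    ∀ x : X.S n, (∀ g ∈ H, (X.act g).f x = x) ↔ ∃ y, i.f y = x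

/-- The `H`-fixed points of `X` are `E`-acyclic. -/
def FixAcyclic (E : Homology) {G : Type} [Group G] (X : GCx G) (H : Subgroup G) : Prop :=
  ∀ (Y : BSS) (i : Map Y X.toBSS), IsFix X H i → E.Acyclic Y

/-- `E`-acyclicity of `X^H` forces `F`-acyclicity of `X^G` for all finite `G`-complexes `X`. -/
def Smith (E F : Homology) {G : Type} [Group G] (H : Subgroup G) : Prop :=
  ∀ X : GCx G, X.IsFin → FixAcyclic E X H → FixAcyclic F X ⊤

/-- The fixed-point loss `r_n(G, H)` of the sequence `K`. -/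
noncomputable def loss (K : ℕ → Homology) (n : ℕ) {G : Type} [Group G] (H : Subgroup G) : ℕ∞ :=
  ⨅ (r : ℕ) (_ : Smith (K (n + r)) (K n) H), (r : ℕ∞)

/-- There is a chain `A = c 0 ◁ c 1 ◁ ⋯ ◁ c s = B` with cyclic quotients. -/
def HasCyclicChain {G : Type} [Group G] (A B : Subgroup G) (s : ℕ) : Prop :=
  ∃ c : ℕ → Subgroup G, c 0 = A ∧ c s = B ∧ ∀ i < s, c i ≤ c (i + 1) ∧
    ∃ _ : ((c i).subgroupOf (c (i + 1))).Normal,
      IsCyclic (c (i + 1) ⧸ (c i).subgroupOf (c (i + 1)))

/-- The least length `ℓ(B, A)` of such a chain. -/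
noncomputable def cycLen {G : Type} [Group G] (A B : Subgroup G) : ℕ :=
  sInf {s | HasCyclicChain A B s}

/-- The listed Smith theorem for cyclic `p`-groups. -/
def CyclicSmith (p : ℕ) (K : ℕ → Homology) : Prop :=
  ∀ (C : Type) [Group C] [Finite C], IsPGroup p C → IsCyclic C → ∀ n,
    Smith (K (n + 1)) (K n) (⊥ : Subgroup C)

/-- The listed values for abelian `p`-groups. -/
def AbelianValues (p : ℕ) (K : ℕ → Homology) : Prop :=
  ∀ (A : Type) [CommGroup A] [Finite A], IsPGroup p A → ∀ n,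
    loss K n (⊥ : Subgroup A) = Group.rank A

end Vale.Agent.P241.Lite
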