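import Mathlib.Algebra.AffineMonoid.Basic
import Mathlib.Algebra.BigOperators.ModEq
import Mathlib.Algebra.Category.Grp.FiniteGrp
import Mathlib.Algebra.Group.Int.TypeTags
import Mathlib.Algebra.Order.Quantale
import Mathlib.Algebra.Order.Ring.Star
import Mathlib.Algebra.Ring.IsFormallyReal
import Mathlib.AlgebraicTopology.SimplicialSet.Boundary
import Mathlib.AlgebraicTopology.SimplicialSet.FiniteProd
import Mathlib.Analysis.SpecialFunctions.Complex.CircleAddChar
import Mathlib.CategoryTheory.Category.Pointed
import Mathlib.CategoryTheory.Limits.Shapes.Countable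
import Mathlib.CategoryTheory.Quotient
import Mathlib.Combinatorics.Additive.Convolution
import Mathlib.Combinatorics.Quiver.ReflQuiver
import Mathlib.Computability.Reduce
import Mathlib.Data.FunLike.Fintype
import Mathlib.Data.Int.Star
import Mathlib.Data.Nat.Choose.Dvd
import Mathlib.Data.Rat.Star
import Mathlib.GroupTheory.FiniteAbelian.Basic
import Mathlib.GroupTheory.Frattini
import Mathlib.GroupTheory.IndexNormal
import Mathlib.GroupTheory.NoncommCoprod
import Mathlib.GroupTheory.Schreier
import Mathlib.GroupTheory.SpecificGroups.ZGroup
import Mathlib.LinearAlgebra.FreeModule.Int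
import Mathlib.NumberTheory.Padics.PadicNorm
import Mathlib.Order.CompletePartialOrder
import Mathlib.Order.KonigLemma
import Mathlib.RingTheory.Henselian
import Mathlib.RingTheory.LocalProperties.Reduced
import Mathlib.RingTheory.PicardGroup
import Mathlib.RingTheory.PowerSeries.Derivative
import Mathlib.RingTheory.PowerSeries.Inverse
import Mathlib.RingTheory.RegularLocalRing.Defs
import Mathlib.RingTheory.SimpleRing.Principal
import Mathlib.Tactic
import Mathlib.Topology.Algebra.ClopenNhdofOne
import Mathlib.Topology.Algebra.ProperAction.Basic
import Mathlib.Topology.Connected.Separation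
import Mathlib.Topology.Separation.Lemmas

/-! The part of Mathlib that the development of this folder uses. -/
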